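import Mathlib

/-!
# P339: definitions

2-to-1 games, their value, Not-Two constraint systems and the reduction `game`.
-/

namespace Vale.Agent.P339

open Finset

/-- A 2-to-1 game with alphabets `[2q]` and `[q]`: finite vertex sets `U`, `V`, a nonempty finite
index set `E` of constraints `e`, each with endpoints `src e`, `tgt e` and a map
`proj e : [2q] → [q]` all of whose fibres have exactly two elements, and a probability
distribution `μ` on `E`. -/
structure TwoToOneGame (q : ℕ) where
  U : Type
  V : Type
  E : Type
  [fintypeU : Fintype U]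
  [fintypeV : Fintype V]
  [fintypeE : Fintype E]
  [nonemptyE : Nonempty E]
  src : E → U
  tgt : E → V
  proj : E → Fin (2 * q) → Fin q
  two_to_one : ∀ (e : E) (b : Fin q), (univ.filter fun a => proj e a = b).card = 2
  μ : E → ℝ
  μ_nonneg : ∀ e, 0 ≤ μ e
  μ_sum : ∑ e, μ e = 1

attribute [instance] TwoToOneGame.fintypeU TwoToOneGame.fintypeV TwoToOneGame.fintypeE
  TwoToOneGame.nonemptyE

/-- The `μ`-probability that a random constraint is satisfied by the labeling `A`, `B`. -/
noncomputable def TwoToOneGame.prob {q : ℕ} (G : TwoToOneGame q) (A : G.U → Fin (2 * q))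
    (B : G.V → Fin q) : ℝ :=
  ∑ e, if G.proj e (A (G.src e)) = B (G.tgt e) then G.μ e else 0

/-- The value of a game: the maximum over all labelings of the probability that a random
constraint is satisfied. -/
noncomputable def TwoToOneGame.value {q : ℕ} (G : TwoToOneGame q) : ℝ :=
  sSup (Set.range fun AB : (G.U → Fin (2 * q)) × (G.V → Fin q) => G.prob AB.1 AB.2)

/-- A Not-Two instance: `n` Boolean variables and `m > 0` constraints (repetitions allowed); the
`i`-th literal (`i = 0, 1, 2`) of constraint `c` is the variable `var c i`, negated iff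
`neg c i = true`. -/
structure NotTwo where
  n : ℕ
  m : ℕ
  pos : 0 < m
  var : Fin m → Fin 3 → Fin n
  neg : Fin m → Fin 3 → Bool

/-- truth value of the `i`-th literal of constraint `c` under the assignment `x` -/
def NotTwo.lit (I : NotTwo) (x : Fin I.n → Bool) (c : Fin I.m) (i : Fin 3) : Bool :=
  xor (x (I.var c i)) (I.neg c i)

/-- `x` satisfies constraint `c`: the number of true literals is not two -/
def NotTwo.Sat (I : NotTwo) (x : Fin I.n → Bool) (c : Fin I.m) : Prop :=
  (univ.filter fun i => I.lit x c i = true).card ≠ 2

instance (I : NotTwo) (x : Fin I.n → Bool) (c : Fin I.m) : Decidable (I.Sat x c) := by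
  unfold NotTwo.Sat; infer_instance

/-- fraction of the constraints satisfied by `x` -/
noncomputable def NotTwo.frac (I : NotTwo) (x : Fin I.n → Bool) : ℝ :=
  ((univ.filter fun c => I.Sat x c).card : ℝ) / I.m

/-- the maximum over all assignments of the fraction of satisfied constraints -/
noncomputable def NotTwo.opt (I : NotTwo) : ℝ := sSup (Set.range I.frac)

/-! ### The gadget -/

/-- the map from the label of `C₁` to the (value of the) label of the first literal -/
def tX : Fin 12 → Fin 6 := ![0, 1, 1, 2, 0, 2, 3, 4, 3, 4, 5, 5]
/-- the map from the label of `C₁` to the (value of the) label of the second literal -/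
def tY : Fin 12 → Fin 6 := ![0, 1, 1, 2, 3, 4, 0, 2, 3, 4, 5, 5]
/-- the map from the label of `C₁` to the label of the private right vertex -/
def tR1 : Fin 12 → Fin 6 := ![0, 0, 1, 1, 4, 5, 4, 5, 2, 2, 3, 3]
/-- the map from the label of `C₂` to the label of the private right vertex -/
def tR2 : Fin 12 → Fin 6 := ![0, 0, 1, 1, 2, 2, 3, 3, 4, 4, 5, 5]
/-- the map from the label of `C₂` to the (value of the) label of the third literal -/
def tZ : Fin 12 → Fin 6 := ![0, 3, 2, 4, 3, 4, 5, 5, 0, 1, 1, 2]

/-- labels `0, 1, 2` of a variable stand for false and `3, 4, 5` for true; a negated literal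
exchanges `i` and `i + 3` -/
def sw (b : Bool) (i : Fin 6) : Fin 6 := if b then i + 3 else i

/-- the left endpoint (first or second private left vertex) of the five edges of a gadget -/
def side : Fin 5 → Bool := ![false, false, false, true, true]

/-- the right endpoint of the five edges of the gadget of constraint `c` -/
def NotTwo.right (I : NotTwo) (c : Fin I.m) : Fin 5 → Fin I.n ⊕ Fin I.m :=
  ![Sum.inl (I.var c 0), Sum.inl (I.var c 1), Sum.inr c, Sum.inr c, Sum.inl (I.var c 2)]

/-- the maps on the five edges of the gadget of a constraint with negation signs `s` -/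
def gmap (s : Fin 3 → Bool) : Fin 5 → Fin 12 → Fin 6 :=
  ![fun a => sw (s 0) (tX a), fun a => sw (s 1) (tY a), tR1, tR2, fun a => sw (s 2) (tZ a)]

theorem gmap_two : ∀ (s : Fin 3 → Bool) (k : Fin 5) (b : Fin 6),
    (univ.filter fun a => gmap s k a = b).card = 2 := by
  decide

/-- The reduction: constraint `c` of `I` is replaced by two left vertices `(c, false)`,
`(c, true)`, one right vertex `inr c` and five edges; each variable `v` is a right vertex
`inl v`. All edges have the same probability. -/
noncomputable def game (I : NotTwo) : TwoToOneGame 6 :=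
  haveI : Nonempty (Fin I.m) := ⟨⟨0, I.pos⟩⟩
  { U := Fin I.m × Bool
    V := Fin I.n ⊕ Fin I.m
    E := Fin I.m × Fin 5
    src := fun e => (e.1, side e.2)
    tgt := fun e => I.right e.1 e.2
    proj := fun e => gmap (I.neg e.1) e.2
    two_to_one := fun e b => gmap_two (I.neg e.1) e.2 b
    μ := fun _ => 1 / (5 * I.m)
    μ_nonneg := fun _ => by positivity
    μ_sum := by
      have h : (I.m : ℝ) ≠ 0 := by exact_mod_cast I.pos.ne'
      simp only [sum_const, card_univ, Fintype.card_prod, Fintype.card_fin, nsmul_eq_mul]
      push_cast
      field_simp }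

end Vale.Agent.P339
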