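import Vale.Agent.P339.Defs

/-!
# P339: the value of the reduction
-/

namespace Vale.Agent.P339

open Finset

/-! ### facts about the gadget tables (checked by evaluation) -/

/-- the Boolean value of a label of a variable -/
def dec (i : Fin 6) : Bool := decide (3 ≤ i)

/-- the Boolean not two -/
def nt (a b c : Bool) : Bool :=
  !((a && b && !c) || (a && !b && c) || (!a && b && c))

/-- honest label of a variable or literal -/
def hW (b : Bool) : Fin 6 := if b then 3 else 0

/-- honest label of `C₁` -/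
def h1 (a b : Bool) : Fin 12 :=
  if a then (if b then 8 else 6) else (if b then 4 else 0)

/-- honest label of the private right vertex -/
def hR (a b : Bool) : Fin 6 :=
  if a then (if b then 2 else 4) else (if b then 4 else 0)

/-- honest label of `C₂` -/
def h2 (a b c : Bool) : Fin 12 :=
  if a then (if b then 4 else 8) else (if b then 8 else (if c then 1 else 0))

theorem not_two_iff : ∀ f : Fin 3 → Bool,
    (univ.filter fun i => f i = true).card ≠ 2 ↔ nt (f 0) (f 1) (f 2) = true := by decide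

theorem dec_sw : ∀ (b : Bool) (i : Fin 6), xor (dec (sw b i)) b = dec i := by decide

theorem sound_table : ∀ a a' : Fin 12, tR1 a = tR2 a' →
    nt (dec (tX a)) (dec (tY a)) (dec (tZ a')) = true := by decide

theorem tX_h1 : ∀ a b : Bool, tX (h1 a b) = hW a := by decide
theorem tY_h1 : ∀ a b : Bool, tY (h1 a b) = hW b := by decide
theorem tR1_h1 : ∀ a b : Bool, tR1 (h1 a b) = hR a b := by decide
theorem tR2_h2 : ∀ a b c : Bool, tR2 (h2 a b c) = hR a b := by decide
theorem tZ_h2 : ∀ a b c : Bool, nt a b c = true → tZ (h2 a b c) = hW c := by decide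
theorem sw_hW : ∀ a b : Bool, sw b (hW (xor a b)) = hW a := by decide

theorem sat_iff (I : NotTwo) (x : Fin I.n → Bool) (c : Fin I.m) :
    I.Sat x c ↔ nt (I.lit x c 0) (I.lit x c 1) (I.lit x c 2) = true :=
  not_two_iff (I.lit x c)

/-! ### counting satisfied edges -/

/-- the number of satisfied edges in the gadget of `c` -/
def cnt (I : NotTwo) (A : Fin I.m × Bool → Fin 12) (B : Fin I.n ⊕ Fin I.m → Fin 6)
    (c : Fin I.m) : ℕ :=
  (univ.filter fun k : Fin 5 => gmap (I.neg c) k (A (c, side k)) = B (I.right c k)).card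

theorem prob_eq (I : NotTwo) (A : Fin I.m × Bool → Fin 12) (B : Fin I.n ⊕ Fin I.m → Fin 6) :
    (game I).prob A B = (∑ c, (cnt I A B c : ℝ)) / (5 * I.m) := by
  have h1 : (game I).prob A B =
      ∑ c : Fin I.m, ∑ k : Fin 5, if gmap (I.neg c) k (A (c, side k)) = B (I.right c k) then
        (1 / (5 * I.m) : ℝ) else 0 := by
    unfold TwoToOneGame.prob
    exact Fintype.sum_prod_type _
  rw [h1, sum_div]
  refine sum_congr rfl (fun c _ => ?_)
  unfold cnt
  rw [← sum_filter, sum_const, nsmul_eq_mul]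
  ring

theorem cnt_le (I : NotTwo) (A : Fin I.m × Bool → Fin 12) (B : Fin I.n ⊕ Fin I.m → Fin 6)
    (c : Fin I.m) : cnt I A B c ≤ 5 := by
  unfold cnt
  exact (card_filter_le _ _).trans (by simp)

/-- Soundness of a gadget: if all five edges are satisfied then the decoded assignment satisfies
the constraint. -/
theorem cnt_lt (I : NotTwo) (A : Fin I.m × Bool → Fin 12) (B : Fin I.n ⊕ Fin I.m → Fin 6)
    (c : Fin I.m) (h : ¬ I.Sat (fun v => dec (B (Sum.inl v))) c) : cnt I A B c ≤ 4 := by
  by_contra hcon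
  have h5 : cnt I A B c = 5 := le_antisymm (cnt_le I A B c) (by omega)
  have hall : ∀ k : Fin 5, gmap (I.neg c) k (A (c, side k)) = B (I.right c k) := by
    unfold cnt at h5
    have := (card_eq_iff_eq_univ
      (univ.filter fun k : Fin 5 => gmap (I.neg c) k (A (c, side k)) = B (I.right c k))).mp
      (by rw [h5]; simp)
    intro k
    have hk := mem_univ k
    rw [← this] at hk
    exact (mem_filter.mp hk).2
  have e0 : sw (I.neg c 0) (tX (A (c, false))) = B (Sum.inl (I.var c 0)) := hall 0
  have e1 : sw (I.neg c 1) (tY (A (c, false))) = B (Sum.inl (I.var c 1)) := hall 1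
  have e2 : tR1 (A (c, false)) = B (Sum.inr c) := hall 2
  have e3 : tR2 (A (c, true)) = B (Sum.inr c) := hall 3
  have e4 : sw (I.neg c 2) (tZ (A (c, true))) = B (Sum.inl (I.var c 2)) := hall 4
  apply h
  rw [sat_iff]
  unfold NotTwo.lit
  simp only
  rw [← e0, ← e1, ← e4, dec_sw, dec_sw, dec_sw]
  exact sound_table _ _ (e2.trans e3.symm)

/-- honest left labels -/
def honA (I : NotTwo) (x : Fin I.n → Bool) : Fin I.m × Bool → Fin 12 := fun cb =>
  if cb.2 then h2 (I.lit x cb.1 0) (I.lit x cb.1 1) (I.lit x cb.1 2)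
  else h1 (I.lit x cb.1 0) (I.lit x cb.1 1)

/-- honest right labels -/
def honB (I : NotTwo) (x : Fin I.n → Bool) : Fin I.n ⊕ Fin I.m → Fin 6 :=
  Sum.elim (fun v => hW (x v)) (fun c => hR (I.lit x c 0) (I.lit x c 1))

theorem hon_edges (I : NotTwo) (x : Fin I.n → Bool) (c : Fin I.m) (k : Fin 5)
    (hk : k ≠ 4 ∨ I.Sat x c) :
    gmap (I.neg c) k (honA I x (c, side k)) = honB I x (I.right c k) := by
  fin_cases k
  · change sw (I.neg c 0) (tX (h1 (I.lit x c 0) (I.lit x c 1))) = hW (x (I.var c 0))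
    rw [tX_h1]
    exact sw_hW _ _
  · change sw (I.neg c 1) (tY (h1 (I.lit x c 0) (I.lit x c 1))) = hW (x (I.var c 1))
    rw [tY_h1]
    exact sw_hW _ _
  · exact tR1_h1 _ _
  · exact tR2_h2 _ _ _
  · have hs : I.Sat x c := by
      rcases hk with hk | hk
      · exact absurd rfl hk
      · exact hk
    change sw (I.neg c 2) (tZ (h2 (I.lit x c 0) (I.lit x c 1) (I.lit x c 2))) = hW (x (I.var c 2))
    rw [tZ_h2 _ _ _ ((sat_iff I x c).mp hs)]
    exact sw_hW _ _

theorem le_cnt_hon (I : NotTwo) (x : Fin I.n → Bool) (c : Fin I.m) :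
    4 + (if I.Sat x c then 1 else 0) ≤ cnt I (honA I x) (honB I x) c := by
  unfold cnt
  by_cases hs : I.Sat x c
  · rw [if_pos hs]
    have : (univ.filter fun k : Fin 5 =>
        gmap (I.neg c) k (honA I x (c, side k)) = honB I x (I.right c k)) = univ := by
      apply filter_true_of_mem
      intro k _
      exact hon_edges I x c k (Or.inr hs)
    rw [this]
    simp
  · rw [if_neg hs]
    have : (univ.filter fun k : Fin 5 => k ≠ 4) ⊆ (univ.filter fun k : Fin 5 =>
        gmap (I.neg c) k (honA I x (c, side k)) = honB I x (I.right c k)) := by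
      intro k hk
      rw [mem_filter] at hk ⊢
      exact ⟨mem_univ _, hon_edges I x c k (Or.inl hk.2)⟩
    exact le_trans (by decide) (card_le_card this)

theorem frac_eq (I : NotTwo) (x : Fin I.n → Bool) :
    (4 + I.frac x) / 5 = (∑ c, ((4 + (if I.Sat x c then 1 else 0) : ℕ) : ℝ)) / (5 * I.m) := by
  have hm : (I.m : ℝ) ≠ 0 := by exact_mod_cast I.pos.ne'
  have : ∑ c, ((4 + (if I.Sat x c then 1 else 0) : ℕ) : ℝ) =
      4 * I.m + ((univ.filter fun c => I.Sat x c).card : ℝ) := by
    push_cast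
    rw [sum_add_distrib, sum_const, card_univ, Fintype.card_fin, nsmul_eq_mul]
    rw [card_filter]
    push_cast
    ring
  rw [this]
  unfold NotTwo.frac
  field_simp

/-- completeness -/
theorem frac_le_prob (I : NotTwo) (x : Fin I.n → Bool) :
    (4 + I.frac x) / 5 ≤ (game I).prob (honA I x) (honB I x) := by
  have hm : (0 : ℝ) < I.m := by exact_mod_cast I.pos
  rw [frac_eq, prob_eq]
  apply div_le_div_of_nonneg_right _ (by positivity)
  apply sum_le_sum
  intro c _
  exact_mod_cast le_cnt_hon I x c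

/-- soundness -/
theorem prob_le_frac (I : NotTwo) (A : Fin I.m × Bool → Fin 12)
    (B : Fin I.n ⊕ Fin I.m → Fin 6) :
    (game I).prob A B ≤ (4 + I.frac (fun v => dec (B (Sum.inl v)))) / 5 := by
  have hm : (0 : ℝ) < I.m := by exact_mod_cast I.pos
  rw [frac_eq, prob_eq]
  apply div_le_div_of_nonneg_right _ (by positivity)
  apply sum_le_sum
  intro c _
  by_cases hs : I.Sat (fun v => dec (B (Sum.inl v))) c
  · rw [if_pos hs]
    exact_mod_cast cnt_le I A B c
  · rw [if_neg hs]
    exact_mod_cast cnt_lt I A B c hs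

theorem exists_opt (I : NotTwo) : ∃ x, I.frac x = I.opt ∧ ∀ y, I.frac y ≤ I.opt := by
  have hfin : (Set.range I.frac).Finite := Set.finite_range _
  have hne : (Set.range I.frac).Nonempty := ⟨_, ⟨fun _ => false, rfl⟩⟩
  obtain ⟨x, hx⟩ := hne.csSup_mem hfin
  exact ⟨x, hx, fun y => le_csSup hfin.bddAbove ⟨y, rfl⟩⟩

theorem TwoToOneGame.isGreatest_value {q : ℕ} (hq : 0 < q) (G : TwoToOneGame q) :
    IsGreatest (Set.range fun AB : (G.U → Fin (2 * q)) × (G.V → Fin q) => G.prob AB.1 AB.2)
      G.value := by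
  classical
  have : Finite ((G.U → Fin (2 * q)) × (G.V → Fin q)) := inferInstance
  have hfin : (Set.range fun AB : (G.U → Fin (2 * q)) × (G.V → Fin q) =>
      G.prob AB.1 AB.2).Finite := Set.finite_range _
  have hne : (Set.range fun AB : (G.U → Fin (2 * q)) × (G.V → Fin q) =>
      G.prob AB.1 AB.2).Nonempty :=
    ⟨_, ⟨(fun _ => ⟨0, by omega⟩, fun _ => ⟨0, hq⟩), rfl⟩⟩
  exact ⟨hne.csSup_mem hfin, fun p hp => le_csSup hfin.bddAbove hp⟩

theorem value_game (I : NotTwo) : (game I).value = (4 + I.opt) / 5 := by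
  obtain ⟨x, hx, hmax⟩ := exists_opt I
  have hg := (game I).isGreatest_value (by norm_num)
  apply le_antisymm
  · obtain ⟨AB, hAB⟩ := hg.1
    rw [← hAB]
    refine (prob_le_frac I AB.1 AB.2).trans ?_
    have := hmax (fun v => dec (AB.2 (Sum.inl v)))
    linarith
  · rw [← hx]
    refine (frac_le_prob I x).trans ?_
    exact hg.2 ⟨(honA I x, honB I x), rfl⟩

theorem opt_le_one (I : NotTwo) : I.opt ≤ 1 := by
  obtain ⟨x, hx, _⟩ := exists_opt I
  rw [← hx]
  unfold NotTwo.frac
  apply div_le_one_of_le₀ _ (Nat.cast_nonneg _)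
  have := card_filter_le (univ : Finset (Fin I.m)) (fun c => I.Sat x c)
  simp at this
  exact_mod_cast this

end Vale.Agent.P339
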